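import Mathlib
import Vale.Agent.P015.R3.H85.Cross

/-!
# P015, block (I): the tile lemma

Two pieces of a path with end displacements `e₁`, `e₂`: the differences of their points cover the
plane modulo `ℤ e₁ + ℤ e₂` up to a bounded error, so there are at least `c |e₁ × e₂|` of them.
-/

open unitInterval

namespace Vale.Agent.P015.H505

open Finset Vale.Agent.P015.R3.H85

/-- a lattice point as a complex number -/
noncomputable def toC (z : ℤ × ℤ) : ℂ := ⟨z.1, z.2⟩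

@[simp] theorem toC_re (z : ℤ × ℤ) : (toC z).re = z.1 := rfl
@[simp] theorem toC_im (z : ℤ × ℤ) : (toC z).im = z.2 := rfl

theorem near_end_sup {D : ℝ} {p q P : ℂ} {s : ℝ} (h0 : 0 ≤ s) (h1 : s ≤ 1)
    (hr : |(q - p).re| ≤ D) (hi : |(q - p).im| ≤ D) (hP : P = p + (s : ℂ) * (q - p)) :
    (|(P - p).re| ≤ D / 2 ∧ |(P - p).im| ≤ D / 2) ∨
      (|(P - q).re| ≤ D / 2 ∧ |(P - q).im| ≤ D / 2) := by
  have h2 : (P - p).re = s * (q - p).re ∧ (P - p).im = s * (q - p).im := by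
    rw [hP]; simp
  have h3 : (P - q).re = (s - 1) * (q - p).re ∧ (P - q).im = (s - 1) * (q - p).im := by
    rw [hP]
    constructor <;> simp <;> ring
  rcases le_total s (1 / 2) with h | h
  · left
    rw [h2.1, h2.2, abs_mul, abs_mul, abs_of_nonneg h0]
    constructor <;> nlinarith [abs_nonneg (q - p).re, abs_nonneg (q - p).im]
  · right
    rw [h3.1, h3.2, abs_mul, abs_mul, abs_of_nonpos (by linarith : s - 1 ≤ 0)]
    constructor <;> nlinarith [abs_nonneg (q - p).re, abs_nonneg (q - p).im]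

/-- `cross_chain` in the sup norm -/
theorem cross_chain_sup {D : ℝ} {a b : ℕ → ℂ} {N M : ℕ} (hN : 0 < N) (hM : 0 < M)
    (L : ℂ →ₗ[ℝ] ℂ) (hL : Function.Injective L) {A B C E : ℝ}
    (ha : ∀ n ≤ N, C ≤ (L (a n)).im ∧ (L (a n)).im ≤ E)
    (hb : ∀ n ≤ M, A ≤ (L (b n)).re ∧ (L (b n)).re ≤ B)
    (a0 : (L (a 0)).re ≤ A) (a1 : B ≤ (L (a N)).re)
    (b0 : (L (b 0)).im ≤ C) (b1 : E ≤ (L (b M)).im)
    (sa : ∀ n < N, |(a (n + 1) - a n).re| ≤ D ∧ |(a (n + 1) - a n).im| ≤ D)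
    (sb : ∀ n < M, |(b (n + 1) - b n).re| ≤ D ∧ |(b (n + 1) - b n).im| ≤ D) :
    ∃ n ≤ N, ∃ m ≤ M, |(a n - b m).re| ≤ D ∧ |(a n - b m).im| ≤ D := by
  have hLc : Continuous L := L.continuous_of_finiteDimensional
  have hin : ∀ (K : ℕ) (t : I), 0 ≤ (t : ℝ) * K ∧ (t : ℝ) * K ≤ K := fun K t =>
    ⟨mul_nonneg t.2.1 (Nat.cast_nonneg _), mul_le_of_le_one_left (Nat.cast_nonneg _) t.2.2⟩
  have hLi : ∀ (p q : ℂ) (s : ℝ), L (p + (s : ℂ) * (q - p)) = L p + (s : ℂ) * (L q - L p) := by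
    intro p q s
    rw [← Complex.real_smul, map_add, map_smul, map_sub, Complex.real_smul]
  obtain ⟨s, t, hst⟩ := P198.PlanarTop.crossing A B C E
    ⟨fun s => L (interp b M ((s : ℝ) * M)),
      hLc.comp ((continuous_interp b M).comp (by fun_prop))⟩
    ⟨fun t => L (interp a N ((t : ℝ) * N)),
      hLc.comp ((continuous_interp a N).comp (by fun_prop))⟩
    (by
      intro s
      obtain ⟨m, hm, r, hr0, hr1, hr⟩ := interp_mem b hM (hin M s).1 (hin M s).2
      simp only [ContinuousMap.coe_mk]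
      rw [hr, hLi]
      simpa using combo_le hr0 hr1 (hb m hm.le) (hb (m + 1) hm))
    (by
      intro t
      obtain ⟨n, hn, r, hr0, hr1, hr⟩ := interp_mem a hN (hin N t).1 (hin N t).2
      simp only [ContinuousMap.coe_mk]
      rw [hr, hLi]
      simpa using combo_le hr0 hr1 (ha n hn.le) (ha (n + 1) hn))
    (by simpa [interp_zero] using b0)
    (by simpa [interp_of_ge b M le_rfl] using b1)
    (by simpa [interp_zero] using a0)
    (by simpa [interp_of_ge a N le_rfl] using a1)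
  simp only [ContinuousMap.coe_mk] at hst
  have hP := hL hst
  obtain ⟨m, hm, r, hr0, hr1, hr⟩ := interp_mem b hM (hin M s).1 (hin M s).2
  obtain ⟨n, hn, q, hq0, hq1, hq⟩ := interp_mem a hN (hin N t).1 (hin N t).2
  obtain ⟨n', hn', h1, h1'⟩ : ∃ n' ≤ N, |(interp a N ((t : ℝ) * N) - a n').re| ≤ D / 2 ∧
      |(interp a N ((t : ℝ) * N) - a n').im| ≤ D / 2 := by
    rcases near_end_sup hq0 hq1 (sa n hn).1 (sa n hn).2 hq with h | h
    · exact ⟨n, hn.le, h⟩
    · exact ⟨n + 1, hn, h⟩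
  obtain ⟨m', hm', h2, h2'⟩ : ∃ m' ≤ M, |(interp b M ((s : ℝ) * M) - b m').re| ≤ D / 2 ∧
      |(interp b M ((s : ℝ) * M) - b m').im| ≤ D / 2 := by
    rcases near_end_sup hr0 hr1 (sb m hm).1 (sb m hm).2 hr with h | h
    · exact ⟨m, hm.le, h⟩
    · exact ⟨m + 1, hm, h⟩
  refine ⟨n', hn', m', hm', ?_, ?_⟩
  · rw [hP] at h2
    have e : (a n' - b m').re = (interp a N ((t : ℝ) * N) - b m').re -
        (interp a N ((t : ℝ) * N) - a n').re := by simp
    rw [e]
    exact (abs_sub _ _).trans (by linarith)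
  · rw [hP] at h2'
    have e : (a n' - b m').im = (interp a N ((t : ℝ) * N) - b m').im -
        (interp a N ((t : ℝ) * N) - a n').im := by simp
    rw [e]
    exact (abs_sub _ _).trans (by linarith)

/-- periodic extension of the path `p 0, ..., p n` -/
def per (p : ℕ → ℤ × ℤ) (n : ℕ) (k : ℕ) : ℤ × ℤ := p (k % n) + ((k / n : ℕ) : ℤ) • (p n - p 0)

theorem per_step {p : ℕ → ℤ × ℤ} {n : ℕ} (hn : 0 < n) {D : ℤ}
    (hs : ∀ k < n, |(p (k + 1)).1 - (p k).1| ≤ D ∧ |(p (k + 1)).2 - (p k).2| ≤ D) (k : ℕ) :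
    |(per p n (k + 1)).1 - (per p n k).1| ≤ D ∧ |(per p n (k + 1)).2 - (per p n k).2| ≤ D := by
  have hk := Nat.mod_lt k hn
  have h := hs (k % n) hk
  have key : per p n (k + 1) - per p n k = p (k % n + 1) - p (k % n) := by
    unfold per
    rcases Nat.lt_or_ge (k % n + 1) n with h1 | h1
    · have e1 : (k + 1) % n = k % n + 1 := by
        rw [Nat.add_mod, Nat.mod_eq_of_lt (show 1 < n by omega), Nat.mod_eq_of_lt h1]
      have e2 : (k + 1) / n = k / n := by
        have := Nat.div_add_mod (k + 1) n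
        have h3 := Nat.div_add_mod k n
        rw [e1] at this
        have : n * ((k + 1) / n) = n * (k / n) := by omega
        exact Nat.eq_of_mul_eq_mul_left hn this
      rw [e1, e2]
      abel
    · have h2 : k % n + 1 = n := by omega
      have e1 : (k + 1) % n = 0 := by
        rw [← Nat.div_add_mod k n]
        rw [show n * (k / n) + k % n + 1 = n * (k / n) + (k % n + 1) by ring, h2]
        simp
      have e2 : (k + 1) / n = k / n + 1 := by
        rw [← Nat.div_add_mod k n]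
        rw [show n * (k / n) + k % n + 1 = n * (k / n) + (k % n + 1) by ring, h2]
        rw [show n * (k / n) + n = n * (k / n + 1) by ring, Nat.mul_div_cancel_left _ hn,
          Nat.mul_add_div hn, Nat.div_eq_of_lt hk]
      rw [e1, e2, h2]
      push_cast
      rw [add_smul, one_smul]
      abel
  have k1 := congrArg Prod.fst key
  have k2 := congrArg Prod.snd key
  simp only [Prod.fst_sub, Prod.snd_sub] at k1 k2
  rw [k1, k2]
  exact h

/-- coordinates in the basis `e₁, e₂` -/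
noncomputable def Lin (e₁ e₂ : ℤ × ℤ) : ℂ →ₗ[ℝ] ℂ where
  toFun z := ⟨(z.re * e₂.2 - z.im * e₂.1) / (e₁.1 * e₂.2 - e₁.2 * e₂.1),
    (e₁.1 * z.im - e₁.2 * z.re) / (e₁.1 * e₂.2 - e₁.2 * e₂.1)⟩
  map_add' z w := by
    apply Complex.ext <;> simp <;> ring
  map_smul' c z := by
    apply Complex.ext <;> simp <;> ring

theorem Lin_re (e₁ e₂ : ℤ × ℤ) (z : ℂ) :
    (Lin e₁ e₂ z).re = (z.re * e₂.2 - z.im * e₂.1) / (e₁.1 * e₂.2 - e₁.2 * e₂.1) := rfl

theorem Lin_im (e₁ e₂ : ℤ × ℤ) (z : ℂ) :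
    (Lin e₁ e₂ z).im = (e₁.1 * z.im - e₁.2 * z.re) / (e₁.1 * e₂.2 - e₁.2 * e₂.1) := rfl

theorem Lin_inj {e₁ e₂ : ℤ × ℤ} (h : e₁.1 * e₂.2 - e₁.2 * e₂.1 ≠ 0) :
    Function.Injective (Lin e₁ e₂) := by
  have h' : (e₁.1 * e₂.2 - e₁.2 * e₂.1 : ℝ) ≠ 0 := by exact_mod_cast h
  rw [injective_iff_map_eq_zero]
  intro z hz
  have h1 := congrArg Complex.re hz
  have h2 := congrArg Complex.im hz
  rw [Lin_re, Complex.zero_re, div_eq_zero_iff] at h1
  rw [Lin_im, Complex.zero_im, div_eq_zero_iff] at h2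
  have h1 := h1.resolve_right h'
  have h2 := h2.resolve_right h'
  apply Complex.ext
  · have : z.re * (e₁.1 * e₂.2 - e₁.2 * e₂.1 : ℝ) = 0 := by linear_combination e₁.1 * h1 + e₂.1 * h2
    simpa [h'] using this
  · have : z.im * (e₁.1 * e₂.2 - e₁.2 * e₂.1 : ℝ) = 0 := by linear_combination e₁.2 * h1 + e₂.2 * h2
    simpa [h'] using this

theorem Lin_add (e₁ e₂ : ℤ × ℤ) (h : e₁.1 * e₂.2 - e₁.2 * e₂.1 ≠ 0) (z : ℤ × ℤ) (i j : ℤ) :
    Lin e₁ e₂ (toC (z + i • e₁ + j • e₂)) = Lin e₁ e₂ (toC z) + (⟨i, j⟩ : ℂ) := by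
  have h' : (e₁.1 * e₂.2 - e₁.2 * e₂.1 : ℝ) ≠ 0 := by exact_mod_cast h
  apply Complex.ext
  · rw [Complex.add_re, Lin_re, Lin_re]
    simp only [toC_re, toC_im, Prod.fst_add, Prod.snd_add, Prod.smul_fst, Prod.smul_snd,
      smul_eq_mul]
    push_cast
    rw [div_add' _ _ _ h']
    congr 1
    ring
  · rw [Complex.add_im, Lin_im, Lin_im]
    simp only [toC_re, toC_im, Prod.fst_add, Prod.snd_add, Prod.smul_fst, Prod.smul_snd,
      smul_eq_mul]
    push_cast
    rw [div_add' _ _ _ h']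
    congr 1
    ring

theorem toC_sub (z w : ℤ × ℤ) : toC z - toC w = toC (z - w) := by
  apply Complex.ext <;> simp

/-- the differences of two paths cover the plane modulo the lattice of the end displacements -/
theorem cover {D : ℕ} {p q : ℕ → ℤ × ℤ} {n m : ℕ} (hn : 0 < n) (hm : 0 < m)
    (hp : ∀ k < n, |(p (k + 1)).1 - (p k).1| ≤ D ∧ |(p (k + 1)).2 - (p k).2| ≤ D)
    (hq : ∀ k < m, |(q (k + 1)).1 - (q k).1| ≤ D ∧ |(q (k + 1)).2 - (q k).2| ≤ D)
    (hc : (p n - p 0).1 * (q m - q 0).2 - (p n - p 0).2 * (q m - q 0).1 ≠ 0) (v : ℤ × ℤ) :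
    ∃ k < n, ∃ l < m, ∃ i j : ℤ,
      |(v - (p k - q l + i • (p n - p 0) + j • (q m - q 0))).1| ≤ D ∧
      |(v - (p k - q l + i • (p n - p 0) + j • (q m - q 0))).2| ≤ D := by
  set e₁ := p n - p 0 with he₁
  set e₂ := q m - q 0 with he₂
  set L := Lin e₁ e₂ with hL
  obtain ⟨S, hS⟩ : ∃ S : ℝ, (∀ k < n, |(L (toC (p k))).re| ≤ S ∧ |(L (toC (p k))).im| ≤ S) ∧
      (∀ l < m, |(L (toC (v + q l))).re| ≤ S ∧ |(L (toC (v + q l))).im| ≤ S) := by
    refine ⟨∑ k ∈ range n, (|(L (toC (p k))).re| + |(L (toC (p k))).im|) +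
      ∑ l ∈ range m, (|(L (toC (v + q l))).re| + |(L (toC (v + q l))).im|), ?_, ?_⟩
    · intro k hk
      have h1 := Finset.single_le_sum
        (f := fun k => |(L (toC (p k))).re| + |(L (toC (p k))).im|)
        (fun i _ => add_nonneg (abs_nonneg _) (abs_nonneg _)) (Finset.mem_range.2 hk)
      have h2 : 0 ≤ ∑ l ∈ range m, (|(L (toC (v + q l))).re| + |(L (toC (v + q l))).im|) :=
        Finset.sum_nonneg fun i _ => add_nonneg (abs_nonneg _) (abs_nonneg _)
      have h3 := abs_nonneg (L (toC (p k))).re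
      have h4 := abs_nonneg (L (toC (p k))).im
      constructor <;> linarith
    · intro l hl
      have h1 := Finset.single_le_sum
        (f := fun l => |(L (toC (v + q l))).re| + |(L (toC (v + q l))).im|)
        (fun i _ => add_nonneg (abs_nonneg _) (abs_nonneg _)) (Finset.mem_range.2 hl)
      have h2 : 0 ≤ ∑ k ∈ range n, (|(L (toC (p k))).re| + |(L (toC (p k))).im|) :=
        Finset.sum_nonneg fun i _ => add_nonneg (abs_nonneg _) (abs_nonneg _)
      have h3 := abs_nonneg (L (toC (v + q l))).re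
      have h4 := abs_nonneg (L (toC (v + q l))).im
      constructor <;> linarith
  have hS0 : 0 ≤ S := (abs_nonneg _).trans (hS.1 0 hn).1
  obtain ⟨R, hR⟩ := exists_nat_gt (2 * S)
  have hR0 : 0 < R := by
    have : (0 : ℝ) < R := by linarith
    exact_mod_cast this
  -- the two chains
  set a : ℕ → ℂ := fun k => toC (per p n k + (-(R : ℤ)) • e₁ + (0 : ℤ) • e₂) with ha
  set b : ℕ → ℂ := fun l => toC (v + per q m l + (0 : ℤ) • e₁ + (-(R : ℤ)) • e₂) with hb
  have hLa : ∀ k, L (a k) = L (toC (p (k % n))) + (⟨((k / n : ℕ) : ℝ) - R, 0⟩ : ℂ) := by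
    intro k
    have e : per p n k + (-(R : ℤ)) • e₁ + (0 : ℤ) • e₂ =
        p (k % n) + (((k / n : ℕ) : ℤ) - R) • e₁ + (0 : ℤ) • e₂ := by
      rw [per, sub_smul, neg_smul]
      abel
    simp only [ha, e]
    rw [hL, Lin_add e₁ e₂ hc]
    simp only [Int.cast_sub, Int.cast_natCast, Int.cast_zero]
  have hLb : ∀ l, L (b l) = L (toC (v + q (l % m))) + (⟨0, ((l / m : ℕ) : ℝ) - R⟩ : ℂ) := by
    intro l
    have e : v + per q m l + (0 : ℤ) • e₁ + (-(R : ℤ)) • e₂ =
        v + q (l % m) + (0 : ℤ) • e₁ + (((l / m : ℕ) : ℤ) - R) • e₂ := by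
      rw [per, sub_smul, neg_smul]
      abel
    simp only [hb, e]
    rw [hL, Lin_add e₁ e₂ hc]
    simp only [Int.cast_sub, Int.cast_natCast, Int.cast_zero]
  have hNn : (n * (2 * R)) % n = 0 := Nat.mul_mod_right n _
  have hNn' : (n * (2 * R)) / n = 2 * R := Nat.mul_div_cancel_left _ hn
  have hMm : (m * (2 * R)) % m = 0 := Nat.mul_mod_right m _
  have hMm' : (m * (2 * R)) / m = 2 * R := Nat.mul_div_cancel_left _ hm
  have c1 : ∀ k ≤ n * (2 * R), -S ≤ (L (a k)).im ∧ (L (a k)).im ≤ S := by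
    intro k _
    rw [hLa, Complex.add_im]
    have := abs_le.1 (hS.1 (k % n) (Nat.mod_lt k hn)).2
    simpa using this
  have c2 : ∀ l ≤ m * (2 * R), -S ≤ (L (b l)).re ∧ (L (b l)).re ≤ S := by
    intro l _
    rw [hLb, Complex.add_re]
    have := abs_le.1 (hS.2 (l % m) (Nat.mod_lt l hm)).1
    simpa using this
  have c3 : (L (a 0)).re ≤ -S := by
    rw [hLa, Complex.add_re]
    have := abs_le.1 (hS.1 (0 % n) (Nat.mod_lt 0 hn)).1
    simp only [Nat.zero_div, Nat.cast_zero]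
    linarith [this.2]
  have c4 : S ≤ (L (a (n * (2 * R)))).re := by
    rw [hLa, Complex.add_re, hNn, hNn']
    have := abs_le.1 (hS.1 0 hn).1
    push_cast
    linarith [this.1]
  have c5 : (L (b 0)).im ≤ -S := by
    rw [hLb, Complex.add_im]
    have := abs_le.1 (hS.2 (0 % m) (Nat.mod_lt 0 hm)).2
    simp only [Nat.zero_div, Nat.cast_zero]
    linarith [this.2]
  have c6 : S ≤ (L (b (m * (2 * R)))).im := by
    rw [hLb, Complex.add_im, hMm, hMm']
    have := abs_le.1 (hS.2 0 hm).2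
    push_cast
    linarith [this.1]
  have c7 : ∀ k < n * (2 * R), |(a (k + 1) - a k).re| ≤ D ∧ |(a (k + 1) - a k).im| ≤ D := by
    intro k _
    have h := per_step hn hp k
    simp only [ha, toC_sub, toC_re, toC_im]
    have e : per p n (k + 1) + (-(R : ℤ)) • e₁ + (0 : ℤ) • e₂ -
        (per p n k + (-(R : ℤ)) • e₁ + (0 : ℤ) • e₂) = per p n (k + 1) - per p n k := by abel
    rw [e, Prod.fst_sub, Prod.snd_sub]
    constructor
    · exact_mod_cast h.1
    · exact_mod_cast h.2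
  have c8 : ∀ l < m * (2 * R), |(b (l + 1) - b l).re| ≤ D ∧ |(b (l + 1) - b l).im| ≤ D := by
    intro l _
    have h := per_step hm hq l
    simp only [hb, toC_sub, toC_re, toC_im]
    have e : v + per q m (l + 1) + (0 : ℤ) • e₁ + (-(R : ℤ)) • e₂ -
        (v + per q m l + (0 : ℤ) • e₁ + (-(R : ℤ)) • e₂) = per q m (l + 1) - per q m l := by abel
    rw [e, Prod.fst_sub, Prod.snd_sub]
    constructor
    · exact_mod_cast h.1
    · exact_mod_cast h.2
  have hx := cross_chain_sup (D := D) (a := a) (b := b) (N := n * (2 * R))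
    (M := m * (2 * R)) (by positivity) (by positivity) L (Lin_inj hc) c1 c2 c3 c4 c5 c6 c7 c8
  obtain ⟨k, -, l, -, h1, h2⟩ := hx
  refine ⟨k % n, Nat.mod_lt k hn, l % m, Nat.mod_lt l hm, ((k / n : ℕ) : ℤ) - R,
    -(((l / m : ℕ) : ℤ) - R), ?_⟩
  have e : v - (p (k % n) - q (l % m) + (((k / n : ℕ) : ℤ) - (R : ℤ)) • e₁ +
      (-(((l / m : ℕ) : ℤ) - (R : ℤ))) • e₂) =
      -((per p n k + (-(R : ℤ)) • e₁ + (0 : ℤ) • e₂) -
        (v + per q m l + (0 : ℤ) • e₁ + (-(R : ℤ)) • e₂)) := by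
    rw [per, per, ← he₁, ← he₂]
    module
  rw [e, Prod.fst_neg, Prod.snd_neg, abs_neg, abs_neg]
  simp only [ha, hb, toC_sub, toC_re, toC_im] at h1 h2
  constructor
  · exact_mod_cast h1
  · exact_mod_cast h2

/-- the index of a lattice of rank two -/
theorem card_quot {e₁ e₂ : ℤ × ℤ} (h : e₁.1 * e₂.2 - e₁.2 * e₂.1 ≠ 0) :
    Nat.card ((ℤ × ℤ) ⧸ Submodule.span ℤ (Set.range ![e₁, e₂])) =
      (e₁.1 * e₂.2 - e₁.2 * e₂.1).natAbs := by
  have hli : LinearIndependent ℤ ![e₁, e₂] := by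
    rw [LinearIndependent.pair_iff]
    intro s t hst
    have h1 := congrArg Prod.fst hst
    have h2 := congrArg Prod.snd hst
    simp only [Prod.fst_add, Prod.snd_add, Prod.smul_fst, Prod.smul_snd, smul_eq_mul,
      Prod.fst_zero, Prod.snd_zero] at h1 h2
    constructor
    · have : s * (e₁.1 * e₂.2 - e₁.2 * e₂.1) = 0 := by linear_combination e₂.2 * h1 - e₂.1 * h2
      simpa [h] using this
    · have : t * (e₁.1 * e₂.2 - e₁.2 * e₂.1) = 0 := by linear_combination e₁.1 * h2 - e₁.2 * h1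
      simpa [h] using this
  have h1 := Submodule.natAbs_det_basis_change (Module.Basis.finTwoProd ℤ)
    (Submodule.span ℤ (Set.range ![e₁, e₂])) (Module.Basis.span hli)
  rw [← h1]
  congr 1
  rw [Module.Basis.det_apply, Matrix.det_fin_two]
  simp [Module.Basis.toMatrix_apply, Module.Basis.span_apply]
  ring

theorem cover_card {D : ℕ} {p q : ℕ → ℤ × ℤ} {n m : ℕ} (hn : 0 < n) (hm : 0 < m)
    (hp : ∀ k < n, |(p (k + 1)).1 - (p k).1| ≤ D ∧ |(p (k + 1)).2 - (p k).2| ≤ D)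
    (hq : ∀ k < m, |(q (k + 1)).1 - (q k).1| ≤ D ∧ |(q (k + 1)).2 - (q k).2| ≤ D)
    (Δ : Finset (ℤ × ℤ)) (hΔ : ∀ k < n, ∀ l < m, p k - q l ∈ Δ) :
    |(p n - p 0).1 * (q m - q 0).2 - (p n - p 0).2 * (q m - q 0).1| ≤
      (2 * D + 1) ^ 2 * (Δ.card : ℤ) := by
  by_cases hc : (p n - p 0).1 * (q m - q 0).2 - (p n - p 0).2 * (q m - q 0).1 = 0
  · rw [hc, abs_zero]
    positivity
  have hcard := card_quot hc
  set N := Submodule.span ℤ (Set.range ![p n - p 0, q m - q 0]) with hN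
  set T : Finset ((ℤ × ℤ) × (ℤ × ℤ)) :=
    Δ ×ˢ (Finset.Icc (-(D : ℤ)) D ×ˢ Finset.Icc (-(D : ℤ)) D) with hT
  have hsurj : ∀ x : (ℤ × ℤ) ⧸ N, ∃ t : T, N.mkQ (t.1.1 + t.1.2) = x := by
    intro x
    obtain ⟨v, rfl⟩ := N.mkQ_surjective x
    obtain ⟨k, hk, l, hl, i, j, h1, h2⟩ := cover hn hm hp hq hc v
    set w := v - (p k - q l + i • (p n - p 0) + j • (q m - q 0)) with hw
    refine ⟨⟨(p k - q l, w), ?_⟩, ?_⟩
    · rw [hT, Finset.mem_product, Finset.mem_product, Finset.mem_Icc, Finset.mem_Icc]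
      exact ⟨hΔ k hk l hl, abs_le.1 h1, abs_le.1 h2⟩
    · simp only
      have : N.mkQ v = N.mkQ (p k - q l + w) := by
        rw [← sub_eq_zero, ← map_sub, Submodule.mkQ_apply, Submodule.Quotient.mk_eq_zero]
        have e : v - (p k - q l + w) = i • (p n - p 0) + j • (q m - q 0) := by
          rw [hw]; abel
        rw [e]
        exact N.add_mem (N.smul_mem _ (Submodule.subset_span ⟨0, rfl⟩))
          (N.smul_mem _ (Submodule.subset_span ⟨1, rfl⟩))
      exact this.symm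
  have h1 : Nat.card ((ℤ × ℤ) ⧸ N) ≤ Nat.card T :=
    Nat.card_le_card_of_surjective (fun t : T => N.mkQ (t.1.1 + t.1.2)) hsurj
  rw [hcard, Nat.card_eq_fintype_card, Fintype.card_coe, hT, Finset.card_product,
    Finset.card_product, Int.card_Icc] at h1
  have h2 : ((D : ℤ) + 1 - -(D : ℤ)).toNat = 2 * D + 1 := by omega
  rw [h2] at h1
  rw [Int.abs_eq_natAbs]
  have h3 : ((((p n - p 0).1 * (q m - q 0).2 - (p n - p 0).2 * (q m - q 0).1).natAbs : ℕ) : ℤ) ≤
      ((Δ.card * ((2 * D + 1) * (2 * D + 1)) : ℕ) : ℤ) := by exact_mod_cast h1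
  refine h3.trans (le_of_eq ?_)
  push_cast
  ring

/-- **Tile lemma** -/
theorem tile {D : ℕ} {g : ℕ → ℤ × ℤ} (s t : ℕ)
    (hstep : ∀ n, s ≤ n → n < t → |(g (n + 1)).1 - (g n).1| ≤ D ∧ |(g (n + 1)).2 - (g n).2| ≤ D)
    {i i' j j' : ℕ} (hi : i ∈ Finset.Icc s t) (hi' : i' ∈ Finset.Icc s t)
    (hj : j ∈ Finset.Icc s t) (hj' : j' ∈ Finset.Icc s t) (Δ : Finset (ℤ × ℤ))
    (hΔ : ∀ k ∈ Finset.Icc s t, ∀ l ∈ Finset.Icc s t, g l - g k ∈ Δ) :
    |((g i').1 - (g i).1) * ((g j').2 - (g j).2) - ((g i').2 - (g i).2) * ((g j').1 - (g j).1)| ≤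
      (2 * D + 1) ^ 2 * (Δ.card : ℤ) := by
  rw [Finset.mem_Icc] at hi hi' hj hj'
  have key : ∀ i i' j j' : ℕ, s ≤ i → i < i' → i' ≤ t → s ≤ j → j < j' → j' ≤ t →
      |((g i').1 - (g i).1) * ((g j').2 - (g j).2) -
        ((g i').2 - (g i).2) * ((g j').1 - (g j).1)| ≤ (2 * D + 1) ^ 2 * (Δ.card : ℤ) := by
    intro i i' j j' h1 h2 h3 h4 h5 h6
    have h := cover_card (D := D) (p := fun k => g (i + k)) (q := fun k => g (j + k))
      (n := i' - i) (m := j' - j) (by omega) (by omega)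
      (fun k hk => hstep (i + k) (by omega) (by omega))
      (fun k hk => hstep (j + k) (by omega) (by omega)) Δ
      (fun k hk l hl => hΔ (j + l) (Finset.mem_Icc.2 ⟨by omega, by omega⟩) (i + k)
        (Finset.mem_Icc.2 ⟨by omega, by omega⟩))
    simp only [show i + (i' - i) = i' by omega, show j + (j' - j) = j' by omega, add_zero,
      Prod.fst_sub, Prod.snd_sub] at h
    exact h
  have h0 : (0 : ℤ) ≤ (2 * D + 1) ^ 2 * (Δ.card : ℤ) := by positivity
  rcases lt_trichotomy i i' with h | h | h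
  · rcases lt_trichotomy j j' with h' | h' | h'
    · exact key i i' j j' hi.1 h hi'.2 hj.1 h' hj'.2
    · subst h'; simpa using h0
    · have := key i i' j' j hi.1 h hi'.2 hj'.1 h' hj.2
      rw [← abs_neg] at this
      refine le_trans (le_of_eq ?_) this
      congr 1
      ring
  · subst h; simpa using h0
  · rcases lt_trichotomy j j' with h' | h' | h'
    · have := key i' i j j' hi'.1 h hi.2 hj.1 h' hj'.2
      rw [← abs_neg] at this
      refine le_trans (le_of_eq ?_) this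
      congr 1
      ring
    · subst h'; simpa using h0
    · have := key i' i j' j hi'.1 h hi.2 hj'.1 h' hj.2
      refine le_trans (le_of_eq ?_) this
      congr 1
      ring

end Vale.Agent.P015.H505
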